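import Vale.Agent.P057SG.Defs

/-!
The blocks between the grid state and the kernel state.
-/

set_option linter.all false

open Matrix Finset Real
open Vale.Agent.P267.H775 Vale.Agent.P057G Vale.Agent.P057PC Vale.Agent.P057TP Vale.Agent.P057MA
open Vale.Agent.P057T1 (ind pr a4)
open Vale.Agent.P057DP (Sel)
open Vale.Agent.P057SY (KS)
open Vale.Agent.P057IV (OnP den Ty Nr Mg jt b4 rel CH Sy Chain Clos)

namespace Vale.Agent.P057SG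

noncomputable section

/-- the common hypotheses; `A` bounds the logarithms of all scales -/
structure Ctx (s : ℕ) (N : ℝ) (c : ℕ) (P : ℕ → ℝ) (T : Tow) (n p : ℕ) (R : Type) [Fintype R]
    (Z : Sys T (Uv n p R) Unit) (f : ℤ → ℝ) (θ A : ℝ) : Prop where
  lad : Lad s N c P
  ok : T.Ok s N
  cx : T.Cx N P
  zok : Z.Ok
  ns : n + 1 ≤ s
  u01 : Unit01 f
  t0 : 0 ≤ θ
  t4 : θ ≤ 4
  p1 : 1 ≤ p
  pP : (p : ℝ) ≤ P (n + 2)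
  rP : (Fintype.card R : ℝ) ≤ P (n + 2)
  PA : P (n + 2) ≤ A
  lf : T.LFd (n + 1) (A ^ c) (A ^ c)

/-- merging of a vertex of the last class with a special vertex, and sifting -/
def S1 (s : ℕ) : Prop :=
  ∀ ε : ℝ, 0 < ε → ε ≤ 1 / 10 → ∃ c : ℕ, 1 ≤ c ∧ ∀ (N : ℝ) (P : ℕ → ℝ) (T : Tow) (n p : ℕ)
    (f : ℤ → ℝ) (θ A γ : ℝ), Lad s N c P → T.Ok s N → T.Cx N P → n + 1 ≤ s → Unit01 f →
    exp (-P (s + 1)) ≤ θ → θ ≤ 4 → 1 ≤ p → (p : ℝ) ≤ P (n + 2) → GS T (n + 1) f p θ →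
    P (n + 2) ≤ A → T.LFd (n + 1) (A ^ c) (A ^ c) → exp (P (n + 2) ^ c) ≤ γ → γ ≤ exp A →
    ∃ (T' : Tow) (R : Type) (_ : Fintype R) (_ : DecidableEq R) (Z : Sys T' (Uv n p R) Unit)
      (sig : ℝ) (r : ℕ) (ξ : (Pg T' n p R → ℤ) → Matrix (Fin r) (Lg T' n p R) ℝ)
      (Ω : (Pg T' n p R → ℤ) → (Lg T' n p R → ℤ) → Prop), T'.Ok s N ∧ Z.Ok ∧ Up (n + 2) T' T ∧
      T.Grow N T' (fun e => P e ^ c) ∧ (∀ a B, T.LFd (n + 1) a (B + c) → T'.LFd (n + 1) a B) ∧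
      Fintype.card R ≤ p ∧ KM Z f ((1 - ε) * θ) γ sig (P (n + 2) ^ c) ξ Ω

/-- the frequencies without correlation are dropped -/
def DROP (s : ℕ) : Prop :=
  ∃ c : ℕ, 1 ≤ c ∧ ∀ (N : ℝ) (P : ℕ → ℝ) (T : Tow) (n p : ℕ) (R : Type) [Fintype R] [DecidableEq R]
    (Z : Sys T (Uv n p R) Unit) (f : ℤ → ℝ) (θ A γ sig X : ℝ) (r : ℕ)
    (ξ : (Pg T n p R → ℤ) → Matrix (Fin r) (Lg T n p R) ℝ)
    (Ω : (Pg T n p R → ℤ) → (Lg T n p R → ℤ) → Prop), Ctx s N c P T n p R Z f θ A →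
    P (n + 2) ≤ X → 1 ≤ γ → γ ≤ exp A → KM Z f θ γ sig X ξ Ω →
    ∃ σ F Ω', PWS Z f θ γ sig (X ^ c) ξ σ F Ω'

/-- hereditary energy: dense sets contain many parallelograms along which the selected
frequencies are additive -/
def EN (s : ℕ) : Prop :=
  ∃ c : ℕ, 1 ≤ c ∧ ∀ (N : ℝ) (P : ℕ → ℝ) (T : Tow) (n p : ℕ) (R : Type) [Fintype R] [DecidableEq R]
    (Z : Sys T (Uv n p R) Unit) (f : ℤ → ℝ) (θ A γ lam sig X Y : ℝ) (r : ℕ)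
    (ξ : (Pg T n p R → ℤ) → Matrix (Fin r) (Lg T n p R) ℝ) (σ : Sel (Fin r))
    (F : Fin σ.t → (Lb T (cU : Uv n p R → _) Unit (n + 2) → ℤ) → ℝ)
    (Ω : (Pg T n p R → ℤ) → (Lg T n p R → ℤ) → Prop), Ctx s N c P T n p R Z f θ A →
    P (n + 2) ≤ X → X ≤ Y → Y ≤ A → exp (Y ^ c) ≤ γ → γ ≤ exp A → exp (Y ^ c) ≤ lam →
    lam ≤ exp A → γ ≤ lam → PWS Z f θ γ sig X ξ σ F Ω →
    ∃ Q : (Pg T n p R → ℤ) → Prop,
      (∀ w, Q w → exp (-(2 * X)) ≤ ∑' z, wL Z w z * ind (Ω w z)) ∧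
      exp (-(2 * X)) ≤ ∑' w, wP Z w * ind (Q w) ∧
      ∀ (y μ : ℝ) (b : Fin n) (U : (Fz T n p R → ℤ) → (Lv T n p R → ℝ) → Prop), X ≤ y → y ≤ Y →
        exp (y ^ c) ≤ μ → μ ≤ exp A → (∀ D, OnP (fce (root Z lam γ D) (BB n)) (U D)) →
        (∀ D x, U D (toR x) → Mg (root Z lam γ D) A ∧ Q (rp (rmap D (toR x)))) →
        exp (-y) ≤ ∑' D, wD Z D * den (root Z lam γ D) (BB n) (U D) →
        exp (-y ^ c) ≤ ∑' D, wD Z D * den (jt (root Z lam γ D) (some b) μ) (b4 (BB n) (some b))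
          fun W => U D (pr (root Z lam γ D) (some b) 0 2 W) ∧ ∀ a,
            Nr (jt (root Z lam γ D) (some b) μ) (a4 {none}) (b4 (BB n) (some b))
              (rel (root Z lam γ D) (some b) fun _ x => fm (frq σ ξ a) (rmap D x)) (exp (y ^ c)) W

/-- algebraic properties of the root system -/
def ROOTA : Prop :=
  ∀ (s : ℕ) (N : ℝ) (T : Tow) (n p : ℕ) (R : Type) [Fintype R] [DecidableEq R]
    (Z : Sys T (Uv n p R) Unit) (lam γ : ℝ) (D : Fz T n p R → ℤ), T.Ok s N → Z.Ok → 0 < lam →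
    0 < γ → (root Z lam γ D).Ok ∧ (root Z lam γ D).Cen ∧
      (∀ ψ, Ty (root Z lam γ D) {none} (BB n) fun x => fm ψ (rmap D x)) ∧
      ∀ Q : (Pg T n p R → ℤ) → Prop, OnP (fce (root Z lam γ D) (BB n)) fun x => Q (rp (rmap D x))

/-- the root system is smooth over most frozen labels and dominates the law of the vertices -/
def ROOT (s : ℕ) : Prop :=
  ∃ c : ℕ, 1 ≤ c ∧ ∀ (N : ℝ) (P : ℕ → ℝ) (T : Tow) (n p : ℕ) (R : Type) [Fintype R] [DecidableEq R]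
    (Z : Sys T (Uv n p R) Unit) (f : ℤ → ℝ) (θ A γ lam Y : ℝ), Ctx s N c P T n p R Z f θ A →
    P (n + 2) ≤ Y → Y ≤ A → 1 ≤ γ → γ ≤ exp A → exp (Y ^ c) ≤ lam → lam ≤ exp A →
    (∀ D, 0 ≤ wD Z D) ∧ Summable (wD Z) ∧ ∑' D, wD Z D ≤ 2 ∧
      (Fintype.card (Lv T n p R) : ℝ) ≤ exp (P (n + 2) ^ c) ∧
      ∀ (Q : (Pg T n p R → ℤ) → Prop) (Gd : (Fz T n p R → ℤ) → Prop),
        ∑' D, wD Z D * ind (¬ Gd D) ≤ exp (-(2 * Y)) →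
        (∑' w, wP Z w * ind (Q w)) / 2 - exp (-Y) ≤ ∑' D, wD Z D * den (root Z lam γ D) (BB n)
          fun x => (Mg (root Z lam γ D) A ∧ Gd D) ∧ Q (rp (rmap D x))

/-- charts in every direction after one refinement step for every class -/
def COVER (V : Type) [Fintype V] [DecidableEq V] : Prop :=
  ∀ c : ℕ, ∃ C : ℕ, 1 ≤ C ∧ ∀ (Δ ι : Type) [Fintype ι] [DecidableEq ι] (S : Δ → MS V ι)
    (wt : Δ → ℝ) (B : Finset V) (κ : Type) [Fintype κ] (ty : κ → Finset V)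
    (Φ : Δ → κ → (ι → ℝ) → ℝ) (E : Δ → (ι → ℝ) → Prop) (Y Z : ℝ) (k : ℕ)
    (Gd : Δ → ℕ → (X' : Sy V) → ((X'.ι → ℝ) → ι → ℝ) → Prop),
    (∀ D, 0 ≤ wt D) → Summable wt → ∑' D, wt D ≤ 2 → (∀ D, (S D).Ok ∧ (S D).Cen) →
    (C : ℝ) ≤ Y → Y ^ C ≤ Z → (∀ r, (ty r).Nonempty ∧ Disjoint (ty r) B) →
    (∀ D r, Ty (S D) (ty r) B (Φ D r)) → (∀ D, OnP (fce (S D) B) (E D)) →
    (Fintype.card ι : ℝ) ≤ exp Y → (Fintype.card κ : ℝ) ≤ Y →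
    (∀ D x, E D x → Mg (S D) (Z ^ C) ∧ Gd D (k + C) ⟨ι, S D⟩ id) →
    (∀ D, Clos B (exp Y) (exp Z) Y Z (exp (-Y ^ C)) ⟨ι, S D⟩ (Gd D)) →
    exp (-Y) ≤ ∑' D, wt D * den (S D) B (E D) →
    (∀ y μ, Y ≤ y → y ≤ Y ^ C → exp (y ^ c) ≤ μ → μ ≤ exp Z → ∀ b ∈ B,
      ∀ U : Δ → (ι → ℝ) → Prop, (∀ D, OnP (fce (S D) B) (U D)) →
      (∀ D x, U D (toR x) → E D (toR x)) → exp (-y) ≤ ∑' D, wt D * den (S D) B (U D) →
      exp (-y ^ c) ≤ ∑' D, wt D * den (jt (S D) b μ) (b4 B b) fun W => U D (pr (S D) b 0 2 W) ∧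
        ∀ r, Nr (jt (S D) b μ) (a4 (ty r)) (b4 B b) (rel (S D) b fun _ => Φ D r) (exp (y ^ c)) W) →
    ∃ (D : Δ) (j : ℕ) (X' : Sy V) (φ : (X'.ι → ℝ) → ι → ℝ) (E' : (X'.ι → ℝ) → Prop), j ≤ C ∧
      Chain B (exp Y) (exp Z) Y ⟨ι, S D⟩ j X' φ ∧ Gd D k X' φ ∧ X'.S.Ok ∧ X'.S.Cen ∧
      Mg X'.S Z ∧ (Fintype.card X'.ι : ℝ) ≤ exp (Y ^ C) ∧ OnP (fce X'.S B) E' ∧
      (∀ z, E' (toR z) → E D (φ (toR z))) ∧ exp (-Y ^ C) ≤ den X'.S B E' ∧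
      (∀ r, Ty X'.S (ty r) B fun w => Φ D r (φ w)) ∧
      ∀ b ∈ B, CH X'.S B b ty (fun r w => Φ D r (φ w)) E' (Y ^ C)

/-- from the multi-affine model on a refinement of the root system to a kernel state -/
def ASM (s : ℕ) : Prop :=
  ∀ k : ℕ, ∃ c τ : ℕ, 1 ≤ c ∧ ∀ (N : ℝ) (P : ℕ → ℝ) (T : Tow) (n p : ℕ) (R : Type) [Fintype R]
    [DecidableEq R] (Z : Sys T (Uv n p R) Unit) (f : ℤ → ℝ) (θ γ lam Λ sig Y : ℝ) (r : ℕ)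
    (ξ : (Pg T n p R → ℤ) → Matrix (Fin r) (Lg T n p R) ℝ) (σ : Sel (Fin r))
    (F : Fin σ.t → (Lb T (cU : Uv n p R → _) Unit (n + 2) → ℤ) → ℝ)
    (Ω : (Pg T n p R → ℤ) → (Lg T n p R → ℤ) → Prop), Ctx s N c P T n p R Z f θ (P (n + 2)) →
    (c : ℝ) ≤ Y → Y ^ c ≤ P (n + 2) → log (P 0) ≤ Y → (∀ z, |EG Z f θ z| ≤ exp Y) →
    P 0 ^ c ≤ Λ → P 0 ^ c ≤ γ → P 0 ^ c ≤ lam →
    exp (Y ^ c) ≤ γ → γ ≤ exp (P (n + 2)) → exp (Y ^ c) ≤ lam → lam ≤ exp (P (n + 2)) →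
    PWS Z f θ γ sig Y ξ σ F Ω →
    ∃ Gd : (Fz T n p R → ℤ) → ℕ → (X' : Sy (Option (Fin n))) →
        ((X'.ι → ℝ) → Lv T n p R → ℝ) → Prop,
      (∀ D, Clos (BB n) Λ (exp (P (n + 2))) (P (n + 2)) (Y ^ c) (exp (-Y)) (rootS Z lam γ D)
        (Gd D)) ∧
      ∑' D, wD Z D * ind (¬ Gd D k (rootS Z lam γ D) id) ≤ exp (-Y) ∧
      ∀ (D : Fz T n p R → ℤ) (j : ℕ) (X' : Sy (Option (Fin n)))
        (φ : (X'.ι → ℝ) → Lv T n p R → ℝ) (E : (X'.ι → ℝ) → Prop) (d : ℕ)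
        (L : Fin σ.t → (X'.ι → ℝ) → ℝ), j ≤ k →
        Chain (BB n) Λ (exp (P (n + 2))) (P (n + 2)) (rootS Z lam γ D) j X' φ → Gd D 0 X' φ →
        X'.S.Ok → X'.S.Cen → Mg X'.S (Y ^ c) → OnP (fce X'.S (BB n)) E →
        (∀ z, E (toR z) → exp (-Y) ≤
          ∑' x, wL Z (rp (rmap D (φ (toR z)))) x * ind (Ω (rp (rmap D (φ (toR z)))) x)) →
        exp (-Y) ≤ den X'.S (BB n) E → 0 < d → (d : ℝ) ≤ exp Y →
        (∀ a, Ty X'.S {none} (BB n) (L a) ∧ ∀ b ∈ BB n, Aff (X'.S.st b) (L a)) →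
        (∀ z, E (toR z) → ∀ a, Nr X'.S {none} (BB n)
          (fun w => d * fm (frq σ ξ a) (rmap D (φ w)) - L a w) (exp Y) (toR z)) →
        ∃ (T' : Tow) (Z' : Sys T' (Wv n p) Unit) (B κ σ' : ℝ), T'.Ok s N ∧ Z'.Ok ∧
          Up (n + 2) T' T ∧ T.Grow N T' (fun e => P e ^ c) ∧ B ≤ exp (P (n + 2) ^ c) ∧
          exp (-P (n + 2) ^ c) ≤ κ ∧ exp (-P 0 ^ c) ≤ σ' ∧
          KS Z' Prod.fst (n + 2) f θ (n + 1) τ (P (n + 2) ^ c) B κ σ'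

/-- the assembly -/
def STG (s : ℕ) : Prop :=
  S1 s → DROP s → EN s → ROOTA → ROOT s → (∀ n, COVER (Option (Fin n))) →
    (∀ n, P057IV.INV (Option (Fin n))) → ASM s → P057SY.SYI s → STAGE s

end

end Vale.Agent.P057SG
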