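import Vale.Agent.P057SY.Defs
import Vale.Agent.P057IV.Plan
import Vale.Agent.P057DP.Pd2
import Vale.Agent.P057DP.Cub

/-!
States between the grid state and the kernel state, and the root system of the inverse step.
-/

set_option linter.all false

open Matrix Finset
open Vale.Agent.P267.H775 Vale.Agent.P057G Vale.Agent.P057PC Vale.Agent.P057TP
open Vale.Agent.P057T1 (ind)
open Vale.Agent.P057DP (thK Sel pbo sG)
open Vale.Agent.P057SY (fo)

namespace Vale.Agent.P057SG

noncomputable section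

open Classical

section gen

variable {T : Tow} {C U : Type} {cl : U → C} {m : ℕ}

/-- labels on the faces without the special vertex -/
def Pu (l : Lb T cl Unit m) : Prop := l.bs = none

/-- labels that are linear in the special vertex -/
def Li (l : Lb T cl Unit m) : Prop := l.Pure ∧ ¬ Pu l

/-- the other labels -/
def No (l : Lb T cl Unit m) : Prop := ¬ l.Pure

instance : DecidablePred (Pu : Lb T cl Unit m → Prop) := Classical.decPred _
instance : DecidablePred (Li : Lb T cl Unit m → Prop) := Classical.decPred _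
instance : DecidablePred (No : Lb T cl Unit m → Prop) := Classical.decPred _

abbrev PW (T : Tow) (cl : U → C) (m : ℕ) : Type := {l : Lb T cl Unit m // Pu l}
abbrev LS (T : Tow) (cl : U → C) (m : ℕ) : Type := {l : Lb T cl Unit m // Li l}
abbrev NP (T : Tow) (cl : U → C) (m : ℕ) : Type := {l : Lb T cl Unit m // No l}

/-- a configuration from its three parts -/
def gl3 {R : Type} (w : PW T cl m → R) (x : LS T cl m → R) (y : NP T cl m → R)
    (l : Lb T cl Unit m) : R :=
  if h : Pu l then w ⟨l, h⟩ else if h' : l.Pure then x ⟨l, h', h⟩ else y ⟨l, h'⟩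

variable [Fintype U] [DecidableEq U] (Z : Sys T U Unit)

/-- the weight of the labels on the faces without the special vertex -/
def wP (w : PW T cl m → ℤ) : ℝ :=
  ng (bk (Gam T cl Unit m) Pu) fun l => (w l : ℝ) - Z.pr cl m (gl3 (toR w) 0 0) l

/-- the centres on the linear fibre -/
def cL (w : PW T cl m → ℤ) (x : LS T cl m → ℝ) (l : LS T cl m) : ℝ :=
  Z.pr cl m (gl3 (toR w) x 0) l

/-- the weight of a base point in the linear fibre -/
def wL (w : PW T cl m → ℤ) (z : LS T cl m → ℤ) : ℝ :=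
  ng (bk (Gam T cl Unit m) Li) (toR z - cL Z w (toR z))

/-- the centred and narrowed weight of a displacement in the linear fibre -/
def wT (γ : ℝ) (w : PW T cl m → ℤ) (t : LS T cl m → ℤ) : ℝ :=
  ng (γ • bk (Gam T cl Unit m) Li) (toR t - (cL Z w (toR t) - cL Z w 0))

/-- the weight of the other labels -/
def wN (w : PW T cl m → ℤ) (x : LS T cl m → ℤ) (y : NP T cl m → ℤ) : ℝ :=
  ng (bk (Gam T cl Unit m) No) fun l => (y l : ℝ) - Z.pr cl m (toR (gl3 w x y)) l

/-- a function summed over the other labels -/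
def ch (F : (Lb T cl Unit m → ℤ) → ℝ) (w : PW T cl m → ℤ) (x : LS T cl m → ℤ) : ℝ :=
  ∑' y, wN Z w x y * F (gl3 w x y)

/-- the linear fibre is fine at the scale `a` -/
def Fn (a : ℝ) (w : PW T cl m → ℤ) : Prop :=
  ∀ c : LS T cl m → ℝ, ∑' z, ng (a • bk (Gam T cl Unit m) Li) (toR z - cL Z w (toR z) - c) ≤ 2

/-- a dense set of pairs (labels of the vertices, base point) -/
def Base (γ X : ℝ) (Ω : (PW T cl m → ℤ) → (LS T cl m → ℤ) → Prop) : Prop :=
  Real.exp (-X) ≤ ∑' w, wP Z w * ∑' z, wL Z w z * ind (Ω w z) ∧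
    ∀ w z, Ω w z → Fn Z (2 * γ) w ∧ ∑' t, wT Z γ w t * ch Z (fun _ => 1) w (z + t) ≤ Real.exp X

/-- the normalised kernel -/
def kr {r : ℕ} (sig : ℝ) (K : Submodule ℤ (Fin r → ℤ)) (u : Fin r → ℝ) : ℝ :=
  thK (sig ^ 2 • (1 : Matrix (Fin r) (Fin r) ℝ)) K u / th (sig ^ 2 • (1 : Matrix (Fin r) (Fin r) ℝ)) 0

/-- the excess of `F` around the base point `z` against the kernel -/
def exc (F : (Lb T cl Unit m → ℤ) → ℝ) (γ sig : ℝ) {r : ℕ} (K : Submodule ℤ (Fin r → ℤ))
    (ξ : (PW T cl m → ℤ) → Matrix (Fin r) (LS T cl m) ℝ) (w : PW T cl m → ℤ)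
    (z : LS T cl m → ℤ) : ℝ :=
  ∑' t, wT Z γ w t * (kr sig K (ξ w *ᵥ toR t) * ch Z F w (z + t))

/-- the correlation of `F` around the base point `z` with the frequency `ψ` -/
def cor (F : (Lb T cl Unit m → ℤ) → ℝ) (γ : ℝ) (w : PW T cl m → ℤ) (z : LS T cl m → ℤ)
    (ψ : LS T cl m → ℝ) : ℂ :=
  ∑' t, ((wT Z γ w t * ch Z F w (z + t) : ℝ) : ℂ) * ee (ψ ⬝ᵥ toR t)

/-- the selected frequencies -/
def frq {r : ℕ} (σ : Sel (Fin r)) (ξ : (PW T cl m → ℤ) → Matrix (Fin r) (LS T cl m) ℝ)
    (a : Fin σ.t) (w : PW T cl m → ℤ) : LS T cl m → ℝ := toR (σ.b a) ᵥ* ξ w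

/-- the labels of the vertices of a real configuration, rounded -/
def rp (y : Lb T cl Unit m → ℝ) : PW T cl m → ℤ := fun l => round (y l)

/-- a frequency that depends on the labels of the vertices, as a function of the configuration -/
def fm (ψ : (PW T cl m → ℤ) → LS T cl m → ℝ) (y : Lb T cl Unit m → ℝ) : ℝ :=
  ψ (rp y) ⬝ᵥ fun l => y l

end gen

/-- the vertices of the grid -/
abbrev Wv (n p : ℕ) : Type := Fin n × Fin p

/-- the vertices of the grid and the passengers -/
abbrev Uv (n p : ℕ) (R : Type) : Type := Wv n p ⊕ R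

/-- the passengers form a class of their own -/
def cU {n p : ℕ} {R : Type} : Uv n p R → Option (Fin n) := Sum.elim (fun v => some v.1) fun _ => none

/-- the vertices of the root system: the displacement `none`, the live parts of the vertices of
the grid, and the frozen vertices -/
abbrev Vt (n p : ℕ) (R : Type) : Type := Option (Wv n p ⊕ Uv n p R)

variable {T : Tow} {n p : ℕ} {R : Type}

/-- the classes of the vertices of the root system -/
def cV : Vt n p R → Option (Option (Fin n)) :=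
  Option.map (Sum.elim (fun v => some v.1) cU)

/-- the old vertex of which a vertex of the root system is a part -/
def om : Vt n p R → Option (Uv n p R) := Option.map (Sum.elim Sum.inl id)

/-- the frozen vertices carry the lower order terms -/
def jk (x : Vt n p R) : Option (Uv n p R) := x.bind (Sum.elim (fun _ => none) some)

/-- the class of a live vertex -/
def lc (x : Vt n p R) : Finset (Option (Fin n)) :=
  x.elim {none} (Sum.elim (fun v => {some v.1}) fun _ => ∅)

/-- the scale of a vertex -/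
def sv (lam γ : ℝ) (x : Vt n p R) : ℝ := x.elim γ (Sum.elim (fun _ => lam) fun _ => 1)

/-- the labels of the root system -/
abbrev Lr (T : Tow) (n p : ℕ) (R : Type) : Type := Lb T (cV : Vt n p R → _) Empty (n + 2)

/-- the live classes of a label -/
def lf (l : Lr T n p R) : Finset (Option (Fin n)) := l.fc.biUnion lc

/-- live labels -/
def Liv (l : Lr T n p R) : Prop := (lf l).Nonempty

instance : DecidablePred (Liv : Lr T n p R → Prop) := Classical.decPred _

abbrev Lv (T : Tow) (n p : ℕ) (R : Type) : Type := {l : Lr T n p R // Liv l}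
abbrev Fz (T : Tow) (n p : ℕ) (R : Type) : Type := {l : Lr T n p R // ¬ Liv l}

/-- live and frozen labels together -/
def gl2 (x : Lv T n p R → ℝ) (D : Fz T n p R → ℤ) (l : Lr T n p R) : ℝ :=
  if h : Liv l then x ⟨l, h⟩ else D ⟨l, h⟩

/-- the classes of the grid -/
def BB (n : ℕ) : Finset (Option (Fin n)) := univ.erase none

variable [Fintype R] [DecidableEq R] (Z : Sys T (Uv n p R) Unit)

/-- the product over the cells of the grid -/
def PG (f : ℤ → ℝ) (z : Lb T (cU : Uv n p R → _) Unit (n + 2) → ℤ) : ℝ :=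
  ∏ c ∈ cells (Prod.fst : Wv n p → Fin n), Z.F cU (n + 2) f z (c.image Sum.inl) ()

/-- the product over the cells of the grid minus the reference value -/
def EG (f : ℤ → ℝ) (θ : ℝ) (z : Lb T (cU : Uv n p R → _) Unit (n + 2) → ℤ) : ℝ :=
  PG Z f z - θ ^ (cells (Prod.fst : Wv n p → Fin n)).card

/-- the weight of the frozen labels -/
def wD (D : Fz T n p R → ℤ) : ℝ :=
  ng (bk (Gam T cV Empty (n + 2)) fun l => ¬ Liv l)
    fun l => (D l : ℝ) - (pbo Z jk Empty).pr cV (n + 2) (gl2 0 D) l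

/-- the root system over the frozen labels `D` -/
def root (lam γ : ℝ) (D : Fz T n p R → ℤ) : MS (Option (Fin n)) (Lv T n p R) where
  fc l := lf l.1
  lv l := T.lv l.1.cd
  G := bk (sG T cV Empty (n + 2) fun A _ => ∏ x ∈ A, sv lam γ x) Liv
  p x l := (pbo Z jk Empty).pr cV (n + 2) (gl2 x D) l

/-- the bundled root system -/
def rootS (lam γ : ℝ) (D : Fz T n p R → ℤ) : P057IV.Sy (Option (Fin n)) :=
  ⟨Lv T n p R, root Z lam γ D⟩

/-- the old labels: sums over the parts of the vertices -/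
def rmap (D : Fz T n p R → ℤ) (x : Lv T n p R → ℝ) (l : Lb T (cU : Uv n p R → _) Unit (n + 2)) :
    ℝ := ∑ k : Lr T n p R, if k.cd = l.cd ∧ k.fc.image om = fo l ∧ l.Pure then gl2 x D k else 0

abbrev Pg (T : Tow) (n p : ℕ) (R : Type) : Type := PW T (cU : Uv n p R → _) (n + 2)
abbrev Lg (T : Tow) (n p : ℕ) (R : Type) : Type := LS T (cU : Uv n p R → _) (n + 2)

/-- the state after the sifting: an excess against a kernel in `r` frequencies -/
def KM (f : ℤ → ℝ) (θ γ sig X : ℝ) {r : ℕ} (ξ : (Pg T n p R → ℤ) → Matrix (Fin r) (Lg T n p R) ℝ)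
    (Ω : (Pg T n p R → ℤ) → (Lg T n p R → ℤ) → Prop) : Prop :=
  (r : ℝ) ≤ X ∧ 1 ≤ sig ∧ sig ≤ Real.exp X ∧ Base Z γ X Ω ∧
    ∀ w z, Ω w z → Real.exp (-X) ≤ exc Z (EG Z f θ) γ sig ⊤ ξ w z

/-- the state after the frequencies without correlation are dropped -/
def PWS (f : ℤ → ℝ) (θ γ sig X : ℝ) {r : ℕ} (ξ : (Pg T n p R → ℤ) → Matrix (Fin r) (Lg T n p R) ℝ)
    (σ : Sel (Fin r)) (F : Fin σ.t → (Lb T (cU : Uv n p R → _) Unit (n + 2) → ℤ) → ℝ)
    (Ω : (Pg T n p R → ℤ) → (Lg T n p R → ℤ) → Prop) : Prop :=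
  (r : ℝ) ≤ X ∧ 1 ≤ sig ∧ sig ≤ Real.exp X ∧ (∃ H : ℕ, σ.Bd H ∧ (H : ℝ) ≤ Real.exp X) ∧
    (∀ a, F a = PG Z f ∨ F a = fun _ => 1) ∧ Base Z γ X Ω ∧
    ∀ w z, Ω w z → Real.exp (-X) ≤ exc Z (EG Z f θ) γ sig σ.K ξ w z ∧
      ∀ a, Real.exp (-X) ≤ ‖cor Z (F a) γ w z (frq σ ξ a w)‖

end

end Vale.Agent.P057SG
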